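import Mathlib

/-!
# The randomized k-server problem (P304): definitions

`k` labelled servers in a metric space `X`; a request `r` is served by moving one chosen server
to `r`, at the price of the distance moved.
-/

namespace Vale.Agent.Lib.P304

open MeasureTheory
open scoped ENNReal NNReal

/-- Total movement of the deterministic online policy `A` on the request list `σ`, when the
servers are at `c` and the requests `h` have been served before: the request `r` arriving after
the requests `h` is served by moving the server `A (h ++ [r])` to `r`; the other servers stay. -/
def runCost {k : ℕ} {X : Type} [MetricSpace X] (A : List X → Fin k) :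
    List X → (Fin k → X) → List X → ℝ
  | _, _, [] => 0
  | h, c, r :: σ =>
      dist (c (A (h ++ [r]))) r +
        runCost A (h ++ [r]) (Function.update c (A (h ++ [r])) r) σ

/-- Total movement of the service of `σ`, started at `c`, in which the successive requests are
served by the successive servers of the list `ch`. -/
def serveCost {k : ℕ} {X : Type} [MetricSpace X] : (Fin k → X) → List X → List (Fin k) → ℝ
  | _, [], _ => 0
  | _, _ :: _, [] => 0
  | c, r :: σ, i :: is => dist (c i) r + serveCost (Function.update c i r) σ is

/-- The optimal offline cost `OPT_s(σ)`: the least total movement of a service of `σ` started at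
`s` (one server chosen for every request, with `σ` known in advance). -/
noncomputable def optCost {k : ℕ} {X : Type} [MetricSpace X] (s : Fin k → X) (σ : List X) : ℝ :=
  sInf {x : ℝ | ∃ ch : List (Fin k), ch.length = σ.length ∧ serveCost s σ ch = x}

/-- Some randomized online policy is `c`-competitive on `(X, d, s)`: there are a probability
space `(Ω, μ)`, deterministic online policies `A ω` depending measurably on `ω` (for every
history `h`, the chosen server `A ω h` is a measurable function of `ω`) and a constant `B` with
`E cost_{A,s}(σ) ≤ c * OPT_s(σ) + B` for every finite request sequence `σ`. -/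
def IsCompetitive (k : ℕ) (X : Type) [MetricSpace X] (s : Fin k → X) (c : ℝ) : Prop :=
  ∃ (Ω : Type) (_ : MeasurableSpace Ω) (μ : Measure Ω) (_ : IsProbabilityMeasure μ)
    (A : Ω → List X → Fin k), (∀ h, Measurable fun ω => A ω h) ∧
    ∃ B : ℝ, ∀ σ : List X, ∫ ω, runCost (A ω) [] s σ ∂μ ≤ c * optCost s σ + B

/-- The randomized competitive ratio `ρ(X, d, s)`: the infimum of the `c ≥ 0` for which some
randomized online policy is `c`-competitive (`∞` if there is none). -/
noncomputable def compRatio (k : ℕ) (X : Type) [MetricSpace X] (s : Fin k → X) : ℝ≥0∞ :=
  ⨅ (c : ℝ≥0) (_ : IsCompetitive k X s c), (c : ℝ≥0∞)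

/-- `R(k)`: the supremum of `ρ(X, d, s)` over all metric spaces `(X, d)` with at least `k + 1`
points and all initial positions `s` of the `k` servers. -/
noncomputable def serverRatio (k : ℕ) : ℝ≥0∞ :=
  ⨆ (X : Type) (m : MetricSpace X) (s : Fin k → X)
    (_ : ∃ f : Fin (k + 1) → X, Function.Injective f), @compRatio k X m s

end Vale.Agent.Lib.P304
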