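import Vale.Agent.Lib.P304.Sim

/-!
# P304: R(k) ≤ R(k+1) for the randomized k-server problem
-/

namespace Vale.Agent.Lib.P304

open MeasureTheory PinSpace
open scoped ENNReal NNReal

/-! ### RUN : basic facts on runs of deterministic policies (any metric space `Y`) -/

section Run

variable {n : ℕ} {Y : Type} [MetricSpace Y]

theorem runCost_nonneg (A : List Y → Fin n) (h : List Y) (c : Fin n → Y) (τ : List Y) :
    0 ≤ runCost A h c τ := by
  induction τ generalizing h c with
  | nil => exact le_of_eq rfl
  | cons r τ ih =>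
    show 0 ≤ dist (c (A (h ++ [r]))) r +
      runCost A (h ++ [r]) (Function.update c (A (h ++ [r])) r) τ
    exact add_nonneg dist_nonneg (ih _ _)

theorem runCost_append (A : List Y → Fin n) (h : List Y) (c : Fin n → Y) (τ₁ τ₂ : List Y) :
    runCost A h c (τ₁ ++ τ₂) =
      runCost A h c τ₁ + runCost A (h ++ τ₁) (runConfig A h c τ₁) τ₂ := by
  induction τ₁ generalizing h c with
  | nil =>
    show runCost A h c τ₂ = 0 + runCost A (h ++ []) c τ₂
    rw [zero_add, List.append_nil]
  | cons r τ₁ ih =>
    show dist (c (A (h ++ [r]))) r +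
        runCost A (h ++ [r]) (Function.update c (A (h ++ [r])) r) (τ₁ ++ τ₂) =
      dist (c (A (h ++ [r]))) r +
        runCost A (h ++ [r]) (Function.update c (A (h ++ [r])) r) τ₁ +
      runCost A (h ++ r :: τ₁)
        (runConfig A (h ++ [r]) (Function.update c (A (h ++ [r])) r) τ₁) τ₂
    rw [ih, List.append_assoc, List.singleton_append, add_assoc]

theorem runConfig_append (A : List Y → Fin n) (h : List Y) (c : Fin n → Y) (τ₁ τ₂ : List Y) :
    runConfig A h c (τ₁ ++ τ₂) = runConfig A (h ++ τ₁) (runConfig A h c τ₁) τ₂ := by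
  induction τ₁ generalizing h c with
  | nil =>
    show runConfig A h c τ₂ = runConfig A (h ++ []) c τ₂
    rw [List.append_nil]
  | cons r τ₁ ih =>
    show runConfig A (h ++ [r]) (Function.update c (A (h ++ [r])) r) (τ₁ ++ τ₂) =
      runConfig A (h ++ r :: τ₁)
        (runConfig A (h ++ [r]) (Function.update c (A (h ++ [r])) r) τ₁) τ₂
    rw [ih, List.append_assoc, List.singleton_append]

/-- The total displacement of the servers is at most the cost. -/
theorem sum_dist_runConfig_le (A : List Y → Fin n) (h : List Y) (c : Fin n → Y) (τ : List Y) :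
    ∑ j, dist (c j) (runConfig A h c τ j) ≤ runCost A h c τ := by
  induction τ generalizing h c with
  | nil =>
    show ∑ j, dist (c j) (c j) ≤ 0
    exact le_of_eq (Finset.sum_eq_zero (fun j _ => dist_self _))
  | cons r τ ih =>
    show ∑ j, dist (c j)
        (runConfig A (h ++ [r]) (Function.update c (A (h ++ [r])) r) τ j) ≤
      dist (c (A (h ++ [r]))) r +
        runCost A (h ++ [r]) (Function.update c (A (h ++ [r])) r) τ
    have hih := ih (h ++ [r]) (Function.update c (A (h ++ [r])) r)
    have h1 : ∑ j, dist (c j) (Function.update c (A (h ++ [r])) r j) =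
        dist (c (A (h ++ [r]))) r := by
      rw [Finset.sum_eq_single (A (h ++ [r]))]
      · rw [Function.update_self]
      · intro j _ hj
        rw [Function.update_of_ne hj, dist_self]
      · intro hj
        exact absurd (Finset.mem_univ _) hj
    have h2 : ∑ j, dist (c j)
        (runConfig A (h ++ [r]) (Function.update c (A (h ++ [r])) r) τ j) ≤
        ∑ j, (dist (c j) (Function.update c (A (h ++ [r])) r j) +
          dist (Function.update c (A (h ++ [r])) r j)
            (runConfig A (h ++ [r]) (Function.update c (A (h ++ [r])) r) τ j)) :=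
      Finset.sum_le_sum (fun j _ => dist_triangle _ _ _)
    rw [Finset.sum_add_distrib, h1] at h2
    linarith

/-- The run depends only on the choices of the policy at the histories `h ++ τ.take (j + 1)`. -/
theorem runConfig_congr (A A' : List Y → Fin n) (h : List Y) (c : Fin n → Y) (τ : List Y)
    (hA : ∀ j < τ.length, A (h ++ τ.take (j + 1)) = A' (h ++ τ.take (j + 1))) :
    runConfig A h c τ = runConfig A' h c τ := by
  induction τ generalizing h c with
  | nil => rfl
  | cons r τ ih =>
    have h0 : A (h ++ [r]) = A' (h ++ [r]) := hA 0 (Nat.succ_pos _)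
    show runConfig A (h ++ [r]) (Function.update c (A (h ++ [r])) r) τ =
      runConfig A' (h ++ [r]) (Function.update c (A' (h ++ [r])) r) τ
    rw [h0]
    refine ih (h ++ [r]) _ (fun j hj => ?_)
    have h1 := hA (j + 1) (Nat.succ_lt_succ hj)
    rw [List.take_succ_cons] at h1
    rw [List.append_assoc, List.singleton_append]
    exact h1

theorem runCost_congr (A A' : List Y → Fin n) (h : List Y) (c : Fin n → Y) (τ : List Y)
    (hA : ∀ j < τ.length, A (h ++ τ.take (j + 1)) = A' (h ++ τ.take (j + 1))) :
    runCost A h c τ = runCost A' h c τ := by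
  induction τ generalizing h c with
  | nil => rfl
  | cons r τ ih =>
    have h0 : A (h ++ [r]) = A' (h ++ [r]) := hA 0 (Nat.succ_pos _)
    show dist (c (A (h ++ [r]))) r +
        runCost A (h ++ [r]) (Function.update c (A (h ++ [r])) r) τ =
      dist (c (A' (h ++ [r]))) r +
        runCost A' (h ++ [r]) (Function.update c (A' (h ++ [r])) r) τ
    rw [h0]
    congr 1
    refine ih (h ++ [r]) _ (fun j hj => ?_)
    have h1 := hA (j + 1) (Nat.succ_lt_succ hj)
    rw [List.take_succ_cons] at h1
    rw [List.append_assoc, List.singleton_append]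
    exact h1

/-- The servers stay in the set of the initial positions and of the requests. -/
theorem runConfig_mem (A : List Y → Fin n) (h : List Y) (c : Fin n → Y) (τ : List Y)
    (j : Fin n) : (∃ i, runConfig A h c τ j = c i) ∨ runConfig A h c τ j ∈ τ := by
  induction τ generalizing h c with
  | nil => exact Or.inl ⟨j, rfl⟩
  | cons r τ ih =>
    show (∃ i, runConfig A (h ++ [r]) (Function.update c (A (h ++ [r])) r) τ j = c i) ∨
      runConfig A (h ++ [r]) (Function.update c (A (h ++ [r])) r) τ j ∈ r :: τ
    rcases ih (h ++ [r]) (Function.update c (A (h ++ [r])) r) with ⟨i, hi⟩ | hmem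
    · by_cases hia : i = A (h ++ [r])
      · right
        rw [hi, hia, Function.update_self]
        exact List.mem_cons_self
      · left
        refine ⟨i, ?_⟩
        rw [hi, Function.update_of_ne hia]
    · exact Or.inr (List.mem_cons_of_mem _ hmem)

theorem taskRUN_sum_update_le (c : Fin n → Y) (i : Fin n) (r0 r : Y) :
    ∑ j, dist (Function.update c i r0 j) r ≤ ∑ j, dist (c j) r + dist r0 r := by
  have h1 : ∀ j ∈ (Finset.univ : Finset (Fin n)),
      dist (Function.update c i r0 j) r ≤ dist (c j) r + (if j = i then dist r0 r else 0) := by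
    intro j _
    by_cases hj : j = i
    · subst hj
      rw [Function.update_self, if_pos rfl]
      have h2 : 0 ≤ dist (c j) r := dist_nonneg
      linarith
    · rw [Function.update_of_ne hj, if_neg hj, add_zero]
  refine (Finset.sum_le_sum h1).trans ?_
  rw [Finset.sum_add_distrib, Finset.sum_ite_eq' Finset.univ i, if_pos (Finset.mem_univ i)]

/-- A bound for the cost that does not depend on the policy. -/
theorem runCost_le_bound (A : List Y → Fin n) (h : List Y) (c : Fin n → Y) (τ : List Y) :
    runCost A h c τ ≤
      (τ.map fun r => ∑ j, dist (c j) r + (τ.map fun y => dist y r).sum).sum := by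
  induction τ generalizing h c with
  | nil => exact le_of_eq rfl
  | cons r0 τ ih =>
    have hih := ih (h ++ [r0]) (Function.update c (A (h ++ [r0])) r0)
    have hstep : (τ.map fun r => ∑ j, dist (Function.update c (A (h ++ [r0])) r0 j) r +
          (τ.map fun y => dist y r).sum).sum ≤
        (τ.map fun r => ∑ j, dist (c j) r + ((r0 :: τ).map fun y => dist y r).sum).sum := by
      refine List.sum_le_sum (fun r _ => ?_)
      rw [List.map_cons, List.sum_cons]
      have h3 := taskRUN_sum_update_le c (A (h ++ [r0])) r0 r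
      linarith
    have hhead : dist (c (A (h ++ [r0]))) r0 ≤
        ∑ j, dist (c j) r0 + ((r0 :: τ).map fun y => dist y r0).sum := by
      have h1 : dist (c (A (h ++ [r0]))) r0 ≤ ∑ j, dist (c j) r0 :=
        Finset.single_le_sum (f := fun j => dist (c j) r0) (fun j _ => dist_nonneg)
          (Finset.mem_univ _)
      have h2 : 0 ≤ ((r0 :: τ).map fun y => dist y r0).sum := by
        refine List.sum_nonneg (fun x hx => ?_)
        rw [List.mem_map] at hx
        obtain ⟨y, _, rfl⟩ := hx
        exact dist_nonneg
      linarith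
    show dist (c (A (h ++ [r0]))) r0 +
        runCost A (h ++ [r0]) (Function.update c (A (h ++ [r0])) r0) τ ≤
      ((r0 :: τ).map fun r => ∑ j, dist (c j) r + ((r0 :: τ).map fun y => dist y r).sum).sum
    rw [List.map_cons, List.sum_cons]
    linarith

end Run

/-! ### OPTB : basic facts on the optimal offline cost -/

section OptB

variable {n : ℕ} {Y : Type} [MetricSpace Y]

theorem serveCost_nonneg (c : Fin n → Y) (σ : List Y) (ch : List (Fin n)) :
    0 ≤ serveCost c σ ch := by
  induction σ generalizing c ch with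
  | nil => simp [serveCost]
  | cons r σ ih =>
    cases ch with
    | nil => simp [serveCost]
    | cons i is =>
      simp only [serveCost]
      exact add_nonneg dist_nonneg (ih _ _)

theorem optCost_le_serveCost (s : Fin n → Y) (σ : List Y) (ch : List (Fin n))
    (hch : ch.length = σ.length) : optCost s σ ≤ serveCost s σ ch := by
  unfold optCost
  apply csInf_le
  · refine ⟨0, ?_⟩
    rintro x ⟨ch', _, rfl⟩
    exact serveCost_nonneg s σ ch'
  · exact ⟨ch, hch, rfl⟩

theorem le_optCost (s : Fin n → Y) (σ : List Y) (i0 : Fin n) (x : ℝ)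
    (hx : ∀ ch : List (Fin n), ch.length = σ.length → x ≤ serveCost s σ ch) :
    x ≤ optCost s σ := by
  unfold optCost
  apply le_csInf
  · exact ⟨_, List.replicate σ.length i0, List.length_replicate, rfl⟩
  · rintro y ⟨ch, hch, rfl⟩
    exact hx ch hch

end OptB

/-! ### BLK : blocks; the shuttle lemma -/

section Blk

variable {n : ℕ} {X : Type} [MetricSpace X] {x₀ : X}

theorem block_length (r : X) (m : ℕ) : (block x₀ r m).length = 2 * m := by
  induction m with
  | zero => rfl
  | succ m ih =>
    have hb : block x₀ r (m + 1) = pt r :: far :: block x₀ r m := rfl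
    rw [hb, List.length_cons, List.length_cons, ih]
    omega

theorem taskBLK_block_succ' (r : X) (m : ℕ) :
    block x₀ r (m + 1) = block x₀ r m ++ [pt r, far] := by
  induction m with
  | zero => rfl
  | succ m ih =>
    calc block x₀ r (m + 1 + 1) = pt r :: far :: block x₀ r (m + 1) := rfl
      _ = pt r :: far :: (block x₀ r m ++ [pt r, far]) := by rw [ih]
      _ = block x₀ r (m + 1) ++ [pt r, far] := rfl

/-- After a nonempty block, the server that served its last request is at `far`. -/
theorem runConfig_block_last (A : List (PinSpace x₀) → Fin n) (h : List (PinSpace x₀))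
    (c : Fin n → PinSpace x₀) (r : X) (m : ℕ) (hm : 1 ≤ m) :
    runConfig A h c (block x₀ r m) (A (h ++ block x₀ r m)) = far := by
  obtain ⟨m', rfl⟩ : ∃ m', m = m' + 1 := ⟨m - 1, by omega⟩
  have hb : block x₀ r (m' + 1) = (block x₀ r m' ++ [pt r]) ++ [far] := by
    rw [taskBLK_block_succ', List.append_assoc]
    rfl
  have h1 : ∀ (h' : List (PinSpace x₀)) (c' : Fin n → PinSpace x₀),
      runConfig A h' c' [far] = Function.update c' (A (h' ++ [far])) far := fun h' c' => rfl
  rw [hb, runConfig_append, h1, List.append_assoc h, Function.update_self]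

/-- The shuttle lemma: if during the block there is never a server at `r` and at the same time
a server at `far`, then the server `e` that was at `far` serves every request of the block,
the configuration at the end is the initial one, and every request costs at least `1`. -/
theorem block_shuttle (A : List (PinSpace x₀) → Fin n) (r : X) (m : ℕ) (h : List (PinSpace x₀))
    (c : Fin n → PinSpace x₀) (e : Fin n) (he : c e = far)
    (hno : ∀ t ≤ 2 * m, ∀ a b, ¬ (runConfig A h c ((block x₀ r m).take t) a = pt r ∧
      runConfig A h c ((block x₀ r m).take t) b = far)) :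
    runConfig A h c (block x₀ r m) = c ∧ (2 * m : ℝ) ≤ runCost A h c (block x₀ r m) := by
  induction m generalizing h with
  | zero =>
    refine ⟨rfl, ?_⟩
    have h0 : runCost A h c (block x₀ r 0) = 0 := rfl
    rw [h0]
    simp
  | succ m ih =>
    have hc1 : runConfig A h c [pt r] = Function.update c (A (h ++ [pt r])) (pt r) := rfl
    have hc2 : runConfig A h c [pt r, far] =
        Function.update (Function.update c (A (h ++ [pt r])) (pt r))
          (A (h ++ [pt r] ++ [far])) far := rfl
    have ht1 : (block x₀ r (m + 1)).take 1 = [pt r] := rfl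
    have ht2 : (block x₀ r (m + 1)).take 2 = [pt r, far] := rfl
    have ha : A (h ++ [pt r]) = e := by
      by_contra hne
      have h1 := hno 1 (by omega) (A (h ++ [pt r])) e
      rw [ht1, hc1] at h1
      apply h1
      refine ⟨Function.update_self _ _ _, ?_⟩
      rw [Function.update_of_ne (fun h' => hne h'.symm), he]
    rw [ha] at hc2
    have hb : A (h ++ [pt r] ++ [far]) = e := by
      by_contra hne
      have h2 := hno 2 (by omega) e (A (h ++ [pt r] ++ [far]))
      rw [ht2, hc2] at h2
      apply h2
      refine ⟨?_, Function.update_self _ _ _⟩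
      rw [Function.update_of_ne (fun h' => hne h'.symm), Function.update_self]
    have hcc : Function.update (Function.update c e (pt r)) e far = c := by
      rw [Function.update_idem, ← he, Function.update_eq_self]
    have hrun : ∀ τ : List (PinSpace x₀), runConfig A h c (pt r :: far :: τ) =
        runConfig A (h ++ [pt r] ++ [far]) c τ := by
      intro τ
      have h0 : runConfig A h c (pt r :: far :: τ) =
          runConfig A (h ++ [pt r] ++ [far])
            (Function.update (Function.update c (A (h ++ [pt r])) (pt r))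
              (A (h ++ [pt r] ++ [far])) far) τ := rfl
      rw [h0, ha, hb, hcc]
    have hcost : ∀ τ : List (PinSpace x₀), runCost A h c (pt r :: far :: τ) =
        (1 + dist x₀ r) + ((1 + dist x₀ r) + runCost A (h ++ [pt r] ++ [far]) c τ) := by
      intro τ
      have h0 : runCost A h c (pt r :: far :: τ) =
          dist (c (A (h ++ [pt r]))) (pt r) +
            (dist (Function.update c (A (h ++ [pt r])) (pt r) (A (h ++ [pt r] ++ [far]))) far +
              runCost A (h ++ [pt r] ++ [far])
                (Function.update (Function.update c (A (h ++ [pt r])) (pt r))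
                  (A (h ++ [pt r] ++ [far])) far) τ) := rfl
      rw [h0, ha, hb, hcc, he, Function.update_self, dist_far_pt, dist_pt_far]
    have hblk : block x₀ r (m + 1) = pt r :: far :: block x₀ r m := rfl
    have hno' : ∀ t ≤ 2 * m, ∀ a b,
        ¬ (runConfig A (h ++ [pt r] ++ [far]) c ((block x₀ r m).take t) a = pt r ∧
          runConfig A (h ++ [pt r] ++ [far]) c ((block x₀ r m).take t) b = far) := by
      intro t ht a b
      have h3 := hno (t + 2) (by omega) a b
      have htk : (block x₀ r (m + 1)).take (t + 2) =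
          pt r :: far :: (block x₀ r m).take t := rfl
      rw [htk, hrun] at h3
      exact h3
    obtain ⟨ih1, ih2⟩ := ih (h ++ [pt r] ++ [far]) hno'
    rw [hblk, hrun, hcost]
    refine ⟨ih1, ?_⟩
    have hd : 0 ≤ dist x₀ r := dist_nonneg
    push_cast
    linarith

end Blk

/-! ### POT : the potential -/

section Pot

variable {k : ℕ} {X : Type} [MetricSpace X] {x₀ : X}

theorem pot_nonneg (q : Fin k → X) (φ : Fin k → Fin (k + 1)) (p : Fin (k + 1) → PinSpace x₀) :
    0 ≤ pot q φ p := by
  unfold pot
  exact Finset.sum_nonneg (fun i _ => dist_nonneg)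

theorem pot_init (s : Fin k → X) : pot s Fin.castSucc (pinStart x₀ s) = 0 := by
  unfold pot pinStart
  apply Finset.sum_eq_zero
  intro i _
  rw [Fin.snoc_castSucc, dist_self]

theorem pinStart_last (s : Fin k → X) : pinStart x₀ s (Fin.last k) = far := by
  unfold pinStart
  rw [Fin.snoc_last]

theorem swap_shadow_injective (φ : Fin k → Fin (k + 1)) (hφ : Function.Injective φ)
    (e e' : Fin (k + 1)) : Function.Injective fun i => Equiv.swap e e' (φ i) :=
  (Equiv.swap e e').injective.comp hφ

theorem swap_shadow_ne (φ : Fin k → Fin (k + 1)) (e e' : Fin (k + 1)) (he : ∀ i, φ i ≠ e)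
    (i : Fin k) : Equiv.swap e e' (φ i) ≠ e' := by
  intro h
  have h1 := congrArg (Equiv.swap e e') h
  rw [Equiv.swap_apply_self, Equiv.swap_apply_right] at h1
  exact he i h1

/-- Every server other than the excluded one is shadowed. -/
theorem exists_shadow (φ : Fin k → Fin (k + 1)) (hφ : Function.Injective φ) (e : Fin (k + 1))
    (he : ∀ i, φ i ≠ e) (a : Fin (k + 1)) (ha : a ≠ e) : ∃ i, φ i = a := by
  by_contra h
  have h' : ∀ i, φ i ≠ a := fun i hi => h ⟨i, hi⟩
  have hk : 1 ≤ k := by
    by_contra hk
    have hk0 : k = 0 := by omega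
    subst hk0
    exact ha (Fin.ext (by
      have h1 := a.isLt
      have h2 := e.isLt
      omega))
  have hsub : Finset.univ.image φ ⊆ (Finset.univ.erase e).erase a := by
    intro x hx
    obtain ⟨i, -, rfl⟩ := Finset.mem_image.mp hx
    exact Finset.mem_erase.mpr ⟨h' i, Finset.mem_erase.mpr ⟨he i, Finset.mem_univ _⟩⟩
  have hcard := Finset.card_le_card hsub
  rw [Finset.card_image_of_injective _ hφ, Finset.card_univ, Fintype.card_fin,
    Finset.card_erase_of_mem (Finset.mem_erase.mpr ⟨ha, Finset.mem_univ _⟩),
    Finset.card_erase_of_mem (Finset.mem_univ _), Finset.card_univ, Fintype.card_fin] at hcard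
  omega

/-- Change of the excluded server from `e` (at `far` in `p`) to `e'` (at `far` in `p'`): the
potential grows at most by the total displacement from `p` to `p'`. -/
theorem pot_swap_le (q : Fin k → X) (φ : Fin k → Fin (k + 1)) (hφ : Function.Injective φ)
    (e e' : Fin (k + 1)) (he : ∀ i, φ i ≠ e) (p p' : Fin (k + 1) → PinSpace x₀)
    (hp : p e = far) (hp' : p' e' = far) :
    pot q (fun i => Equiv.swap e e' (φ i)) p' ≤ pot q φ p + ∑ j, dist (p j) (p' j) := by
  have hG0 : ∀ j : Fin (k + 1), 0 ≤ dist (p j) (p' j) - (if j = e then dist (p e) (p' e) else 0)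
      + (if j = e' then dist (p e) (p' e) else 0) := by
    intro j
    have h1 : 0 ≤ dist (p j) (p' j) - (if j = e then dist (p e) (p' e) else 0) := by
      by_cases hj : j = e
      · rw [if_pos hj, hj, sub_self]
      · rw [if_neg hj, sub_zero]
        exact dist_nonneg
    have h2 : 0 ≤ (if j = e' then dist (p e) (p' e) else 0) := by
      split_ifs
      · exact dist_nonneg
      · exact le_rfl
    linarith
  have hterm : ∀ i : Fin k, dist (pt (q i) : PinSpace x₀) (p' (Equiv.swap e e' (φ i)))
      ≤ dist (pt (q i) : PinSpace x₀) (p (φ i))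
        + (dist (p (φ i)) (p' (φ i)) - (if φ i = e then dist (p e) (p' e) else 0)
          + (if φ i = e' then dist (p e) (p' e) else 0)) := by
    intro i
    rw [if_neg (he i), sub_zero]
    by_cases h : φ i = e'
    · rw [if_pos h, h, Equiv.swap_apply_right]
      have t1 := dist_triangle (pt (q i) : PinSpace x₀) (p e') (p' e)
      have t2 := dist_triangle (p e') (p' e') (p' e)
      have t3 : dist (p' e') (p' e) = dist (p e) (p' e) := by rw [hp', hp]
      linarith
    · rw [if_neg h, Equiv.swap_apply_of_ne_of_ne (he i) h, add_zero]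
      exact dist_triangle _ _ _
  have hsum : ∑ i, (dist (p (φ i)) (p' (φ i)) - (if φ i = e then dist (p e) (p' e) else 0)
          + (if φ i = e' then dist (p e) (p' e) else 0))
      ≤ ∑ j, (dist (p j) (p' j) - (if j = e then dist (p e) (p' e) else 0)
          + (if j = e' then dist (p e) (p' e) else 0)) := by
    rw [← Finset.sum_image (s := Finset.univ) (g := φ)
      (f := fun j => dist (p j) (p' j) - (if j = e then dist (p e) (p' e) else 0)
          + (if j = e' then dist (p e) (p' e) else 0)) (fun x _ y _ hxy => hφ hxy)]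
    exact Finset.sum_le_sum_of_subset_of_nonneg (Finset.subset_univ _) (fun j _ _ => hG0 j)
  have htot : ∑ j, (dist (p j) (p' j) - (if j = e then dist (p e) (p' e) else 0)
          + (if j = e' then dist (p e) (p' e) else 0)) = ∑ j, dist (p j) (p' j) := by
    rw [Finset.sum_add_distrib, Finset.sum_sub_distrib, Finset.sum_ite_eq', Finset.sum_ite_eq']
    simp
  unfold pot
  calc ∑ i, dist (pt (q i) : PinSpace x₀) (p' (Equiv.swap e e' (φ i)))
      ≤ ∑ i, (dist (pt (q i) : PinSpace x₀) (p (φ i))
        + (dist (p (φ i)) (p' (φ i)) - (if φ i = e then dist (p e) (p' e) else 0)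
          + (if φ i = e' then dist (p e) (p' e) else 0))) :=
        Finset.sum_le_sum (fun i _ => hterm i)
    _ = ∑ i, dist (pt (q i) : PinSpace x₀) (p (φ i))
        + ∑ i, (dist (p (φ i)) (p' (φ i)) - (if φ i = e then dist (p e) (p' e) else 0)
          + (if φ i = e' then dist (p e) (p' e) else 0)) := Finset.sum_add_distrib
    _ ≤ ∑ i, dist (pt (q i) : PinSpace x₀) (p (φ i)) + ∑ j, dist (p j) (p' j) := by
        rw [← htot]
        linarith

/-- A real server moves onto the position of its shadow. -/
theorem pot_update_eq (q : Fin k → X) (φ : Fin k → Fin (k + 1)) (p : Fin (k + 1) → PinSpace x₀)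
    (i : Fin k) (r : X) (hr : p (φ i) = pt r) :
    pot (Function.update q i r) φ p = pot q φ p - dist (q i) r := by
  unfold pot
  have h1 := Finset.add_sum_erase Finset.univ
    (fun j => dist (pt (Function.update q i r j) : PinSpace x₀) (p (φ j))) (Finset.mem_univ i)
  have h2 := Finset.add_sum_erase Finset.univ
    (fun j => dist (pt (q j) : PinSpace x₀) (p (φ j))) (Finset.mem_univ i)
  have h3 : ∑ j ∈ Finset.univ.erase i, dist (pt (Function.update q i r j) : PinSpace x₀) (p (φ j))
      = ∑ j ∈ Finset.univ.erase i, dist (pt (q j) : PinSpace x₀) (p (φ j)) :=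
    Finset.sum_congr rfl (fun j hj => by
      rw [Function.update_of_ne (Finset.ne_of_mem_erase hj)])
  simp only [Function.update_self] at h1
  rw [hr, dist_self] at h1
  rw [hr, dist_pt_pt] at h2
  linarith

theorem pot_update_le (q : Fin k → X) (φ : Fin k → Fin (k + 1)) (p : Fin (k + 1) → PinSpace x₀)
    (i : Fin k) (r : X) : pot (Function.update q i r) φ p ≤ pot q φ p + dist (q i) r := by
  unfold pot
  have h1 := Finset.add_sum_erase Finset.univ
    (fun j => dist (pt (Function.update q i r j) : PinSpace x₀) (p (φ j))) (Finset.mem_univ i)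
  have h2 := Finset.add_sum_erase Finset.univ
    (fun j => dist (pt (q j) : PinSpace x₀) (p (φ j))) (Finset.mem_univ i)
  have h3 : ∑ j ∈ Finset.univ.erase i, dist (pt (Function.update q i r j) : PinSpace x₀) (p (φ j))
      = ∑ j ∈ Finset.univ.erase i, dist (pt (q j) : PinSpace x₀) (p (φ j)) :=
    Finset.sum_congr rfl (fun j hj => by
      rw [Function.update_of_ne (Finset.ne_of_mem_erase hj)])
  simp only [Function.update_self] at h1
  have t1 := dist_triangle (pt r : PinSpace x₀) (pt (q i)) (p (φ i))
  rw [dist_pt_pt, dist_comm r (q i)] at t1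
  linarith

end Pot

/-! ### CORE : the two branches of `simCore` -/

section Core

variable {k : ℕ} {X : Type} {x₀ : X}

theorem simCore_q (i0 : Fin k) (st : SimState k x₀) (r : X) (N : ℕ)
    (cfgs : ℕ → Fin (k + 1) → PinSpace x₀) (ef : Fin (k + 1)) (blk : List (PinSpace x₀)) :
    (simCore i0 st r N cfgs ef blk).q =
      Function.update st.q (simCore i0 st r N cfgs ef blk).last r := by
  unfold simCore
  split <;> rfl

theorem simCore_p (i0 : Fin k) (st : SimState k x₀) (r : X) (N : ℕ)
    (cfgs : ℕ → Fin (k + 1) → PinSpace x₀) (ef : Fin (k + 1)) (blk : List (PinSpace x₀)) :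
    (simCore i0 st r N cfgs ef blk).p = cfgs N := by
  unfold simCore
  split <;> rfl

theorem simCore_hp (i0 : Fin k) (st : SimState k x₀) (r : X) (N : ℕ)
    (cfgs : ℕ → Fin (k + 1) → PinSpace x₀) (ef : Fin (k + 1)) (blk : List (PinSpace x₀)) :
    (simCore i0 st r N cfgs ef blk).hp = st.hp ++ blk := by
  unfold simCore
  split <;> rfl

theorem simCore_h (i0 : Fin k) (st : SimState k x₀) (r : X) (N : ℕ)
    (cfgs : ℕ → Fin (k + 1) → PinSpace x₀) (ef : Fin (k + 1)) (blk : List (PinSpace x₀)) :
    (simCore i0 st r N cfgs ef blk).h = st.h ++ [r] := by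
  unfold simCore
  split <;> rfl

/-- The good branch: there are a time `t ≤ N`, a server `a` at `r` and a server `b` at `far` at
time `t`, such that the real server `last` shadows `a` once `b` is excluded. -/
theorem simCore_good (i0 : Fin k) (st : SimState k x₀) (r : X) (N : ℕ)
    (cfgs : ℕ → Fin (k + 1) → PinSpace x₀) (ef : Fin (k + 1)) (blk : List (PinSpace x₀))
    (hinj : Function.Injective st.φ) (hne : ∀ i, st.φ i ≠ st.e)
    (hg : ∃ x : ℕ × Fin (k + 1) × Fin (k + 1),
      x.1 ≤ N ∧ cfgs x.1 x.2.1 = pt r ∧ cfgs x.1 x.2.2 = far) :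
    ∃ (t : ℕ) (a b : Fin (k + 1)), t ≤ N ∧ cfgs t a = pt r ∧ cfgs t b = far ∧
      Equiv.swap st.e b (st.φ (simCore i0 st r N cfgs ef blk).last) = a ∧
      (simCore i0 st r N cfgs ef blk).φ =
        (fun j => Equiv.swap b ef (Equiv.swap st.e b (st.φ j))) ∧
      (simCore i0 st r N cfgs ef blk).e = ef := by
  have hspec := hg.choose_spec
  refine ⟨hg.choose.1, hg.choose.2.1, hg.choose.2.2, hspec.1, hspec.2.1, hspec.2.2, ?_, ?_, ?_⟩
  · have hinj1 : Function.Injective (fun i => Equiv.swap st.e hg.choose.2.2 (st.φ i)) :=
      swap_shadow_injective st.φ hinj st.e hg.choose.2.2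
    have hne1 : ∀ i, (fun i => Equiv.swap st.e hg.choose.2.2 (st.φ i)) i ≠ hg.choose.2.2 :=
      fun i => swap_shadow_ne st.φ st.e hg.choose.2.2 hne i
    have hab : hg.choose.2.1 ≠ hg.choose.2.2 := by
      intro h
      have h1 := hspec.2.1
      rw [h, hspec.2.2] at h1
      cases h1
    obtain ⟨i, hi⟩ := exists_shadow _ hinj1 hg.choose.2.2 hne1 hg.choose.2.1 hab
    have hlast : (simCore i0 st r N cfgs ef blk).last
        = @Function.invFun _ _ ⟨i0⟩ (fun i => Equiv.swap st.e hg.choose.2.2 (st.φ i))
          hg.choose.2.1 := by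
      rw [simCore, dif_pos hg]
    rw [hlast]
    exact @Function.invFun_eq _ _ ⟨i0⟩ (fun i => Equiv.swap st.e hg.choose.2.2 (st.φ i))
      hg.choose.2.1 ⟨i, hi⟩
  · rw [simCore, dif_pos hg]
  · rw [simCore, dif_pos hg]

/-- The bad branch. -/
theorem simCore_bad (i0 : Fin k) (st : SimState k x₀) (r : X) (N : ℕ)
    (cfgs : ℕ → Fin (k + 1) → PinSpace x₀) (ef : Fin (k + 1)) (blk : List (PinSpace x₀))
    (hg : ¬ ∃ x : ℕ × Fin (k + 1) × Fin (k + 1),
      x.1 ≤ N ∧ cfgs x.1 x.2.1 = pt r ∧ cfgs x.1 x.2.2 = far) :
    (simCore i0 st r N cfgs ef blk).last = i0 ∧ (simCore i0 st r N cfgs ef blk).φ = st.φ ∧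
      (simCore i0 st r N cfgs ef blk).e = st.e := by
  rw [simCore, dif_neg hg]
  exact ⟨rfl, rfl, rfl⟩

end Core

/-! ### GOOD : the inequality of one step in the good branch -/

section Good

variable {k : ℕ} {X : Type} [MetricSpace X] {x₀ : X}

theorem good_step_ineq (P : List (PinSpace x₀) → Fin (k + 1)) (q : Fin k → X)
    (φ : Fin k → Fin (k + 1)) (e : Fin (k + 1)) (p : Fin (k + 1) → PinSpace x₀)
    (hp : List (PinSpace x₀)) (hinj : Function.Injective φ) (hne : ∀ i, φ i ≠ e)
    (hfar : p e = far) (r : X) (m : ℕ) (hm : 1 ≤ m) (t : ℕ) (ht : t ≤ 2 * m)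
    (a b : Fin (k + 1))
    (ha : runConfig P hp p ((block x₀ r m).take t) a = pt r)
    (hb : runConfig P hp p ((block x₀ r m).take t) b = far)
    (i : Fin k) (hi : Equiv.swap e b (φ i) = a) :
    dist (q i) r +
        pot (Function.update q i r)
          (fun j => Equiv.swap b (P (hp ++ block x₀ r m)) (Equiv.swap e b (φ j)))
          (runConfig P hp p (block x₀ r m))
      ≤ pot q φ p + runCost P hp p (block x₀ r m) := by
  have hsplit : (block x₀ r m).take t ++ (block x₀ r m).drop t = block x₀ r m :=
    List.take_append_drop t (block x₀ r m)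
  have hcost : runCost P hp p (block x₀ r m) =
      runCost P hp p ((block x₀ r m).take t) +
        runCost P (hp ++ (block x₀ r m).take t)
          (runConfig P hp p ((block x₀ r m).take t)) ((block x₀ r m).drop t) := by
    rw [← runCost_append, hsplit]
  have hcfg : runConfig P hp p (block x₀ r m) =
      runConfig P (hp ++ (block x₀ r m).take t)
        (runConfig P hp p ((block x₀ r m).take t)) ((block x₀ r m).drop t) := by
    rw [← runConfig_append, hsplit]
  have hd1 := sum_dist_runConfig_le P hp p ((block x₀ r m).take t)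
  have hd2 := sum_dist_runConfig_le P (hp ++ (block x₀ r m).take t)
    (runConfig P hp p ((block x₀ r m).take t)) ((block x₀ r m).drop t)
  rw [← hcfg] at hd2
  have hlast : runConfig P hp p (block x₀ r m) (P (hp ++ block x₀ r m)) = far :=
    runConfig_block_last P hp p r m hm
  have hinj1 : Function.Injective fun j => Equiv.swap e b (φ j) :=
    swap_shadow_injective φ hinj e b
  have hne1 : ∀ j, Equiv.swap e b (φ j) ≠ b := fun j => swap_shadow_ne φ e b hne j
  have s1 := pot_swap_le q φ hinj e b hne p (runConfig P hp p ((block x₀ r m).take t)) hfar hb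
  have s2 := pot_update_eq q (fun j => Equiv.swap e b (φ j))
    (runConfig P hp p ((block x₀ r m).take t)) i r (by rw [hi]; exact ha)
  have s3 := pot_swap_le (Function.update q i r) (fun j => Equiv.swap e b (φ j)) hinj1 b
    (P (hp ++ block x₀ r m)) hne1 (runConfig P hp p ((block x₀ r m).take t))
    (runConfig P hp p (block x₀ r m)) hb hlast
  linarith

end Good

/-! ### BAD : the inequality of one step in the bad branch -/

section Bad

variable {k : ℕ} {X : Type} [MetricSpace X] {x₀ : X}

theorem dist_le_reps (s : Fin k → X) (h : List X) (r : X) (y : X)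
    (hy : (∃ j, y = s j) ∨ y ∈ h) : dist y r ≤ (reps s h r : ℝ) := by
  have h1 : (0:ℝ) ≤ ∑ i, dist (s i) r := Finset.sum_nonneg fun i _ => dist_nonneg
  have hall : ∀ x ∈ (h.map fun z => dist z r), (0:ℝ) ≤ x := by
    intro x hx
    rw [List.mem_map] at hx
    obtain ⟨z, _, rfl⟩ := hx
    exact dist_nonneg
  have h2 : (0:ℝ) ≤ (h.map fun z => dist z r).sum := List.sum_nonneg hall
  have hS : dist y r ≤ ∑ i, dist (s i) r + (h.map fun z => dist z r).sum := by
    rcases hy with ⟨j, rfl⟩ | hy
    · have h3 := Finset.single_le_sum (f := fun i => dist (s i) r)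
        (fun i _ => dist_nonneg) (Finset.mem_univ j)
      linarith
    · have hmem : dist y r ∈ (h.map fun z => dist z r) := List.mem_map.mpr ⟨y, hy, rfl⟩
      have h3 := List.single_le_sum hall _ hmem
      linarith
  have hc : ∑ i, dist (s i) r + (h.map fun z => dist z r).sum
      ≤ (⌈∑ i, dist (s i) r + (h.map fun z => dist z r).sum⌉₊ : ℝ) := Nat.le_ceil _
  unfold reps
  push_cast
  linarith

theorem one_le_reps (s : Fin k → X) (h : List X) (r : X) : 1 ≤ reps s h r := by
  unfold reps
  omega

theorem bad_step_ineq (P : List (PinSpace x₀) → Fin (k + 1)) (q : Fin k → X)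
    (φ : Fin k → Fin (k + 1)) (e : Fin (k + 1)) (p : Fin (k + 1) → PinSpace x₀)
    (hp : List (PinSpace x₀)) (hfar : p e = far) (r : X) (m : ℕ)
    (hno : ∀ t ≤ 2 * m, ∀ a b, ¬ (runConfig P hp p ((block x₀ r m).take t) a = pt r ∧
      runConfig P hp p ((block x₀ r m).take t) b = far))
    (i0 : Fin k) (hd : dist (q i0) r ≤ (m : ℝ)) :
    runConfig P hp p (block x₀ r m) = p ∧
      dist (q i0) r + pot (Function.update q i0 r) φ (runConfig P hp p (block x₀ r m))
        ≤ pot q φ p + runCost P hp p (block x₀ r m) := by
  obtain ⟨hcfg, hcost⟩ := block_shuttle P r m hp p e hfar hno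
  refine ⟨hcfg, ?_⟩
  rw [hcfg]
  have h1 := pot_update_le q φ p i0 r
  linarith

end Bad

/-! ### INV : the invariant and the inequality of one step of the simulation -/

section Inv

variable {k : ℕ} {X : Type} [MetricSpace X] {x₀ : X}

theorem blocksFrom_append (s : Fin k → X) (h σ : List X) (r : X) :
    blocksFrom x₀ s h (σ ++ [r]) = blocksFrom x₀ s h σ ++ block x₀ r (reps s (h ++ σ) r) := by
  induction σ generalizing h with
  | nil => simp [blocksFrom]
  | cons a σ ih =>
    simp only [List.cons_append, blocksFrom]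
    rw [ih (h ++ [a])]
    simp [List.append_assoc]

theorem simInit_inv (s : Fin k → X) (i0 : Fin k) (P : List (PinSpace x₀) → Fin (k + 1)) :
    SimInv x₀ s P (simInit x₀ s i0) := by
  unfold SimInv
  exact ⟨Fin.castSucc_injective k, fun i => (Fin.castSucc_lt_last i).ne, pinStart_last s,
    fun i => Or.inl ⟨i, rfl⟩, rfl, rfl⟩

theorem taskINV_block_take (r : X) (m : ℕ) :
    (block x₀ r m).take (2 * m) = block x₀ r m :=
  List.take_of_length_le (le_of_eq (block_length r m))

/-- The components of the new state that do not depend on the branch. -/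
theorem taskINV_common (s : Fin k → X) (i0 : Fin k) (P : List (PinSpace x₀) → Fin (k + 1))
    (st : SimState k x₀) (r : X) :
    (simStep x₀ s i0 P st r).q = Function.update st.q (simStep x₀ s i0 P st r).last r ∧
    (simStep x₀ s i0 P st r).p = runConfig P st.hp st.p (block x₀ r (reps s st.h r)) ∧
    (simStep x₀ s i0 P st r).hp = st.hp ++ block x₀ r (reps s st.h r) ∧
    (simStep x₀ s i0 P st r).h = st.h ++ [r] := by
  refine ⟨simCore_q _ _ _ _ _ _ _, ?_, simCore_hp _ _ _ _ _ _ _, simCore_h _ _ _ _ _ _ _⟩
  have h := simCore_p i0 st r (2 * reps s st.h r)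
    (fun t => runConfig P st.hp st.p ((block x₀ r (reps s st.h r)).take t))
    (P (st.hp ++ block x₀ r (reps s st.h r))) (block x₀ r (reps s st.h r))
  have h' : (simStep x₀ s i0 P st r).p =
      runConfig P st.hp st.p ((block x₀ r (reps s st.h r)).take (2 * reps s st.h r)) := h
  rw [taskINV_block_take] at h'
  exact h'

/-- The components of the new state that depend on the branch. -/
theorem taskINV_branch (s : Fin k → X) (i0 : Fin k) (P : List (PinSpace x₀) → Fin (k + 1))
    (st : SimState k x₀) (hst : SimInv x₀ s P st) (r : X) :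
    Function.Injective (simStep x₀ s i0 P st r).φ ∧
      (∀ i, (simStep x₀ s i0 P st r).φ i ≠ (simStep x₀ s i0 P st r).e) ∧
      runConfig P st.hp st.p (block x₀ r (reps s st.h r)) (simStep x₀ s i0 P st r).e = far := by
  obtain ⟨hinj, hne, hfar, -, -, -⟩ := hst
  have hm := one_le_reps s st.h r
  by_cases hg : ∃ x : ℕ × Fin (k + 1) × Fin (k + 1),
      x.1 ≤ 2 * reps s st.h r ∧
      runConfig P st.hp st.p ((block x₀ r (reps s st.h r)).take x.1) x.2.1 = pt r ∧
      runConfig P st.hp st.p ((block x₀ r (reps s st.h r)).take x.1) x.2.2 = far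
  · obtain ⟨t, a, b, -, -, -, -, hφ', he'⟩ := simCore_good i0 st r (2 * reps s st.h r)
      (fun t => runConfig P st.hp st.p ((block x₀ r (reps s st.h r)).take t))
      (P (st.hp ++ block x₀ r (reps s st.h r))) (block x₀ r (reps s st.h r)) hinj hne hg
    have hφ'' : (simStep x₀ s i0 P st r).φ = fun j =>
        Equiv.swap b (P (st.hp ++ block x₀ r (reps s st.h r))) (Equiv.swap st.e b (st.φ j)) :=
      hφ'
    have he'' : (simStep x₀ s i0 P st r).e = P (st.hp ++ block x₀ r (reps s st.h r)) := he'
    rw [hφ'', he'']
    refine ⟨?_, ?_, ?_⟩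
    · exact swap_shadow_injective (fun i => Equiv.swap st.e b (st.φ i))
        (swap_shadow_injective st.φ hinj st.e b) b _
    · intro i
      exact swap_shadow_ne (fun i => Equiv.swap st.e b (st.φ i)) b _
        (fun j => swap_shadow_ne st.φ st.e b hne j) i
    · exact runConfig_block_last P st.hp st.p r _ hm
  · obtain ⟨-, hφ', he'⟩ := simCore_bad i0 st r (2 * reps s st.h r)
      (fun t => runConfig P st.hp st.p ((block x₀ r (reps s st.h r)).take t))
      (P (st.hp ++ block x₀ r (reps s st.h r))) (block x₀ r (reps s st.h r)) hg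
    have hφ'' : (simStep x₀ s i0 P st r).φ = st.φ := hφ'
    have he'' : (simStep x₀ s i0 P st r).e = st.e := he'
    rw [hφ'', he'']
    have hno : ∀ t ≤ 2 * reps s st.h r, ∀ a b,
        ¬ (runConfig P st.hp st.p ((block x₀ r (reps s st.h r)).take t) a = pt r ∧
          runConfig P st.hp st.p ((block x₀ r (reps s st.h r)).take t) b = far) :=
      fun t ht a b hab => hg ⟨(t, a, b), ht, hab.1, hab.2⟩
    have hsh := (block_shuttle P r (reps s st.h r) st.hp st.p st.e hfar hno).1
    refine ⟨hinj, hne, ?_⟩
    rw [hsh]
    exact hfar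

theorem simStep_inv (s : Fin k → X) (i0 : Fin k) (P : List (PinSpace x₀) → Fin (k + 1))
    (st : SimState k x₀) (hst : SimInv x₀ s P st) (r : X) :
    SimInv x₀ s P (simStep x₀ s i0 P st r) := by
  obtain ⟨h1, h2, h3⟩ := taskINV_branch s i0 P st hst r
  obtain ⟨-, -, -, hq, hpeq, hhp⟩ := hst
  obtain ⟨hq', hp', hhp', hh'⟩ := taskINV_common s i0 P st r
  unfold SimInv
  refine ⟨h1, h2, ?_, ?_, ?_, ?_⟩
  · rw [hp']
    exact h3
  · intro i
    rw [hq', hh']
    by_cases hi : i = (simStep x₀ s i0 P st r).last
    · right
      rw [hi, Function.update_self]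
      simp
    · rw [Function.update_of_ne hi]
      rcases hq i with hj | hmem
      · exact Or.inl hj
      · exact Or.inr (List.mem_append_left _ hmem)
  · rw [hp', hhp', runConfig_append, List.nil_append, ← hpeq]
  · rw [hhp', hh', blocksFrom_append, List.nil_append, ← hhp]

theorem simStep_ineq (s : Fin k → X) (i0 : Fin k) (P : List (PinSpace x₀) → Fin (k + 1))
    (st : SimState k x₀) (hst : SimInv x₀ s P st) (r : X) :
    dist (st.q (simStep x₀ s i0 P st r).last) r +
        pot (simStep x₀ s i0 P st r).q (simStep x₀ s i0 P st r).φ (simStep x₀ s i0 P st r).p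
      ≤ pot st.q st.φ st.p + runCost P st.hp st.p (block x₀ r (reps s st.h r)) := by
  obtain ⟨hinj, hne, hfar, hq, -, -⟩ := hst
  obtain ⟨hq', hp', -, -⟩ := taskINV_common s i0 P st r
  have hm := one_le_reps s st.h r
  rw [hq', hp']
  by_cases hg : ∃ x : ℕ × Fin (k + 1) × Fin (k + 1),
      x.1 ≤ 2 * reps s st.h r ∧
      runConfig P st.hp st.p ((block x₀ r (reps s st.h r)).take x.1) x.2.1 = pt r ∧
      runConfig P st.hp st.p ((block x₀ r (reps s st.h r)).take x.1) x.2.2 = far
  · obtain ⟨t, a, b, htN, hta, htb, hsw, hφ', -⟩ := simCore_good i0 st r (2 * reps s st.h r)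
      (fun t => runConfig P st.hp st.p ((block x₀ r (reps s st.h r)).take t))
      (P (st.hp ++ block x₀ r (reps s st.h r))) (block x₀ r (reps s st.h r)) hinj hne hg
    have hφ'' : (simStep x₀ s i0 P st r).φ = fun j =>
        Equiv.swap b (P (st.hp ++ block x₀ r (reps s st.h r))) (Equiv.swap st.e b (st.φ j)) :=
      hφ'
    have hsw' : Equiv.swap st.e b (st.φ (simStep x₀ s i0 P st r).last) = a := hsw
    rw [hφ'']
    exact good_step_ineq P st.q st.φ st.e st.p st.hp hinj hne hfar r _ hm t htN a b hta htb _
      hsw'
  · obtain ⟨hl, hφ', -⟩ := simCore_bad i0 st r (2 * reps s st.h r)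
      (fun t => runConfig P st.hp st.p ((block x₀ r (reps s st.h r)).take t))
      (P (st.hp ++ block x₀ r (reps s st.h r))) (block x₀ r (reps s st.h r)) hg
    have hl' : (simStep x₀ s i0 P st r).last = i0 := hl
    have hφ'' : (simStep x₀ s i0 P st r).φ = st.φ := hφ'
    rw [hl', hφ'']
    have hno : ∀ t ≤ 2 * reps s st.h r, ∀ a b,
        ¬ (runConfig P st.hp st.p ((block x₀ r (reps s st.h r)).take t) a = pt r ∧
          runConfig P st.hp st.p ((block x₀ r (reps s st.h r)).take t) b = far) :=
      fun t ht a b hab => hg ⟨(t, a, b), ht, hab.1, hab.2⟩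
    exact (bad_step_ineq P st.q st.φ st.e st.p st.hp hfar r _ hno i0
      (dist_le_reps s st.h r (st.q i0) (hq i0))).2

end Inv

/-! ### MAIN : the induced policy costs at most the simulated policy -/

section Main

variable {k : ℕ} {X : Type} [MetricSpace X] {x₀ : X}

theorem sim_snoc (s : Fin k → X) (i0 : Fin k) (P : List (PinSpace x₀) → Fin (k + 1))
    (h : List X) (r : X) :
    sim x₀ s i0 P (h ++ [r]) = simStep x₀ s i0 P (sim x₀ s i0 P h) r := by
  simp [sim, List.foldl_append]

theorem sim_inv (s : Fin k → X) (i0 : Fin k) (P : List (PinSpace x₀) → Fin (k + 1))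
    (h : List X) : SimInv x₀ s P (sim x₀ s i0 P h) := by
  induction h using List.reverseRecOn with
  | nil => exact simInit_inv s i0 P
  | append_singleton h r ih =>
    rw [sim_snoc]
    exact simStep_inv s i0 P _ ih r

theorem sim_h (s : Fin k → X) (i0 : Fin k) (P : List (PinSpace x₀) → Fin (k + 1))
    (h : List X) : (sim x₀ s i0 P h).h = h := by
  induction h using List.reverseRecOn with
  | nil => rfl
  | append_singleton h r ih =>
    rw [sim_snoc]
    have h1 : (simStep x₀ s i0 P (sim x₀ s i0 P h) r).h = (sim x₀ s i0 P h).h ++ [r] :=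
      simCore_h _ _ _ _ _ _ _
    rw [h1, ih]

/-- The inequality of the whole simulation, started after any history. -/
theorem taskMAIN_aux (s : Fin k → X) (i0 : Fin k) (P : List (PinSpace x₀) → Fin (k + 1))
    (σ : List X) : ∀ h : List X,
    runCost (induce x₀ s i0 P) h (sim x₀ s i0 P h).q σ +
        pot (sim x₀ s i0 P (h ++ σ)).q (sim x₀ s i0 P (h ++ σ)).φ (sim x₀ s i0 P (h ++ σ)).p
      ≤ pot (sim x₀ s i0 P h).q (sim x₀ s i0 P h).φ (sim x₀ s i0 P h).p +
        runCost P (sim x₀ s i0 P h).hp (sim x₀ s i0 P h).p (blocksFrom x₀ s h σ) := by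
  induction σ with
  | nil =>
    intro h
    simp [runCost, blocksFrom]
  | cons r σ ih =>
    intro h
    have hs' : sim x₀ s i0 P (h ++ [r]) = simStep x₀ s i0 P (sim x₀ s i0 P h) r :=
      sim_snoc s i0 P h r
    have hh : (sim x₀ s i0 P h).h = h := sim_h s i0 P h
    have hstep := simStep_ineq s i0 P (sim x₀ s i0 P h) (sim_inv s i0 P h) r
    rw [← hs'] at hstep
    have hih := ih (h ++ [r])
    have e1 : (h ++ [r]) ++ σ = h ++ r :: σ := by simp
    rw [e1] at hih
    have hq : (sim x₀ s i0 P (h ++ [r])).q =
        Function.update (sim x₀ s i0 P h).q (sim x₀ s i0 P (h ++ [r])).last r := by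
      rw [hs']
      exact simCore_q _ _ _ _ _ _ _
    have hhp : (sim x₀ s i0 P (h ++ [r])).hp =
        (sim x₀ s i0 P h).hp ++ block x₀ r (reps s (sim x₀ s i0 P h).h r) := by
      rw [hs']
      exact simCore_hp _ _ _ _ _ _ _
    have hp : (sim x₀ s i0 P (h ++ [r])).p =
        runConfig P (sim x₀ s i0 P h).hp (sim x₀ s i0 P h).p
          (block x₀ r (reps s (sim x₀ s i0 P h).h r)) := by
      rw [hs']
      have h1 : (simStep x₀ s i0 P (sim x₀ s i0 P h) r).p =
          runConfig P (sim x₀ s i0 P h).hp (sim x₀ s i0 P h).p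
            ((block x₀ r (reps s (sim x₀ s i0 P h).h r)).take
              (2 * reps s (sim x₀ s i0 P h).h r)) :=
        simCore_p _ _ _ _ _ _ _
      have h2 : (block x₀ r (reps s (sim x₀ s i0 P h).h r)).take
          (2 * reps s (sim x₀ s i0 P h).h r) = block x₀ r (reps s (sim x₀ s i0 P h).h r) :=
        List.take_of_length_le (by rw [block_length])
      rw [h1, h2]
    have hb : blocksFrom x₀ s h (r :: σ) =
        block x₀ r (reps s (sim x₀ s i0 P h).h r) ++ blocksFrom x₀ s (h ++ [r]) σ := by
      rw [hh]
      rfl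
    have hrc : runCost (induce x₀ s i0 P) h (sim x₀ s i0 P h).q (r :: σ) =
        dist ((sim x₀ s i0 P h).q (sim x₀ s i0 P (h ++ [r])).last) r +
          runCost (induce x₀ s i0 P) (h ++ [r]) (sim x₀ s i0 P (h ++ [r])).q σ := by
      rw [hq]
      rfl
    rw [hrc, hb, runCost_append, ← hhp, ← hp]
    linarith

theorem runCost_induce_le (s : Fin k → X) (i0 : Fin k) (P : List (PinSpace x₀) → Fin (k + 1))
    (σ : List X) :
    runCost (induce x₀ s i0 P) [] s σ ≤
      runCost P [] (pinStart x₀ s) (blocksFrom x₀ s [] σ) := by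
  have h := taskMAIN_aux s i0 P σ []
  rw [List.nil_append] at h
  have hn := pot_nonneg (sim x₀ s i0 P σ).q (sim x₀ s i0 P σ).φ (sim x₀ s i0 P σ).p
  have h0 : pot (sim x₀ s i0 P []).q (sim x₀ s i0 P []).φ (sim x₀ s i0 P []).p = 0 :=
    pot_init s
  rw [h0] at h
  have h1 : runCost (induce x₀ s i0 P) [] (sim x₀ s i0 P []).q σ
      = runCost (induce x₀ s i0 P) [] s σ := rfl
  have h2 : runCost P (sim x₀ s i0 P []).hp (sim x₀ s i0 P []).p (blocksFrom x₀ s [] σ)
      = runCost P [] (pinStart x₀ s) (blocksFrom x₀ s [] σ) := rfl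
  rw [h1, h2] at h
  linarith

end Main

/-! ### OPT : the optimal cost of the pinned instance is at most the optimal cost -/

section Opt

variable {k : ℕ} {X : Type} [MetricSpace X] {x₀ : X}

/-- The configuration at the end of the service of `σ` by the choices `ch`. -/
def taskOPT_serveConfig {n : ℕ} {Y : Type} : (Fin n → Y) → List Y → List (Fin n) → (Fin n → Y)
  | c, [], _ => c
  | c, _ :: _, [] => c
  | c, r :: σ, i :: is => taskOPT_serveConfig (Function.update c i r) σ is

theorem taskOPT_serveCost_append {n : ℕ} {Y : Type} [MetricSpace Y] (σ₁ σ₂ : List Y)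
    (ch₂ : List (Fin n)) : ∀ (c : Fin n → Y) (ch₁ : List (Fin n)), ch₁.length = σ₁.length →
    serveCost c (σ₁ ++ σ₂) (ch₁ ++ ch₂) =
      serveCost c σ₁ ch₁ + serveCost (taskOPT_serveConfig c σ₁ ch₁) σ₂ ch₂ := by
  induction σ₁ with
  | nil =>
    intro c ch₁ h
    cases ch₁ with
    | nil => simp [serveCost, taskOPT_serveConfig]
    | cons i is => simp at h
  | cons r σ ih =>
    intro c ch₁ h
    cases ch₁ with
    | nil => simp at h
    | cons i is =>
      simp only [List.cons_append, serveCost, taskOPT_serveConfig]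
      rw [ih _ _ (by simpa using h)]
      ring

/-- The choices serving a block: the server `i` for the real request, the last server for the
far point. -/
def taskOPT_choices {k : ℕ} (i : Fin k) : ℕ → List (Fin (k + 1))
  | 0 => []
  | m + 1 => Fin.castSucc i :: Fin.last k :: taskOPT_choices i m

omit [MetricSpace X] in
theorem taskOPT_choices_length (i : Fin k) (r : X) (m : ℕ) :
    (taskOPT_choices i m).length = (block x₀ r m).length := by
  induction m with
  | zero => simp [taskOPT_choices, block]
  | succ m ih => simp [taskOPT_choices, block, ih]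

theorem taskOPT_block_stay (c' : Fin (k + 1) → PinSpace x₀) (i : Fin k) (r : X)
    (h1 : c' (Fin.castSucc i) = pt r) (h2 : c' (Fin.last k) = far) (m : ℕ) :
    serveCost c' (block x₀ r m) (taskOPT_choices i m) = 0 ∧
      taskOPT_serveConfig c' (block x₀ r m) (taskOPT_choices i m) = c' := by
  induction m with
  | zero => simp [block, taskOPT_choices, serveCost, taskOPT_serveConfig]
  | succ m ih =>
    have e1 : Function.update c' (Fin.castSucc i) (pt r) = c' :=
      Function.update_eq_self_iff.mpr h1.symm
    have e2 : Function.update c' (Fin.last k) (far : PinSpace x₀) = c' :=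
      Function.update_eq_self_iff.mpr h2.symm
    simp only [block, taskOPT_choices, serveCost, taskOPT_serveConfig]
    rw [e1, e2, h1, h2, dist_self, dist_self, ih.1, ih.2]
    simp

theorem taskOPT_serve_block (c' : Fin (k + 1) → PinSpace x₀) (i : Fin k) (r : X)
    (h2 : c' (Fin.last k) = far) (m : ℕ) :
    serveCost c' (block x₀ r (m + 1)) (taskOPT_choices i (m + 1)) =
        dist (c' (Fin.castSucc i)) (pt r) ∧
      taskOPT_serveConfig c' (block x₀ r (m + 1)) (taskOPT_choices i (m + 1)) =
        Function.update c' (Fin.castSucc i) (pt r) := by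
  have hne : Fin.last k ≠ Fin.castSucc i := (Fin.castSucc_lt_last i).ne'
  have h1' : Function.update c' (Fin.castSucc i) (pt r) (Fin.castSucc i) = pt r :=
    Function.update_self _ _ _
  have h2' : Function.update c' (Fin.castSucc i) (pt r) (Fin.last k) = far := by
    rw [Function.update_of_ne hne, h2]
  have e2 : Function.update (Function.update c' (Fin.castSucc i) (pt r)) (Fin.last k)
      (far : PinSpace x₀) = Function.update c' (Fin.castSucc i) (pt r) :=
    Function.update_eq_self_iff.mpr h2'.symm
  obtain ⟨s1, s2⟩ := taskOPT_block_stay (Function.update c' (Fin.castSucc i) (pt r)) i r h1' h2' m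
  simp only [block, taskOPT_choices, serveCost, taskOPT_serveConfig]
  rw [e2, h2', dist_self, s1, s2]
  simp

omit [MetricSpace X] in
theorem taskOPT_pinStart_update (c : Fin k → X) (i : Fin k) (r : X) :
    pinStart x₀ (Function.update c i r) =
      Function.update (pinStart x₀ c) (Fin.castSucc i) (pt r) := by
  funext j
  refine Fin.lastCases ?_ (fun j => ?_) j
  · rw [Function.update_of_ne (Fin.castSucc_lt_last i).ne']
    simp [pinStart]
  · by_cases hj : j = i
    · subst hj
      simp [pinStart]
    · have hne : Fin.castSucc j ≠ Fin.castSucc i := fun h => hj (Fin.castSucc_injective _ h)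
      rw [Function.update_of_ne hne]
      simp [pinStart, Function.update_of_ne hj]

theorem taskOPT_lift (s : Fin k → X) (σ : List X) :
    ∀ (c : Fin k → X) (h : List X) (ch : List (Fin k)), ch.length = σ.length →
      ∃ ch' : List (Fin (k + 1)), ch'.length = (blocksFrom x₀ s h σ).length ∧
        serveCost (pinStart x₀ c) (blocksFrom x₀ s h σ) ch' = serveCost c σ ch := by
  induction σ with
  | nil =>
    intro c h ch _
    exact ⟨[], by simp [blocksFrom], by simp [blocksFrom, serveCost]⟩
  | cons r σ ih =>
    intro c h ch hch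
    cases ch with
    | nil => simp at hch
    | cons i is =>
      obtain ⟨ch'', hlen, hcost⟩ :=
        ih (Function.update c i r) (h ++ [r]) is (by simpa using hch)
      obtain ⟨m, hm⟩ : ∃ m, reps s h r = m + 1 := ⟨_, rfl⟩
      have hlast : pinStart x₀ c (Fin.last k) = far := by simp [pinStart]
      have hcs : pinStart x₀ c (Fin.castSucc i) = pt (c i) := by simp [pinStart]
      obtain ⟨b1, b2⟩ := taskOPT_serve_block (pinStart x₀ c) i r hlast m
      have hl := taskOPT_choices_length (x₀ := x₀) i r (m + 1)
      refine ⟨taskOPT_choices i (m + 1) ++ ch'', ?_, ?_⟩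
      · simp only [blocksFrom, hm, List.length_append, hl, hlen]
      · simp only [blocksFrom, hm]
        rw [taskOPT_serveCost_append _ _ _ _ _ hl, b1, b2, ← taskOPT_pinStart_update, hcost, hcs,
          dist_pt_pt]
        simp [serveCost]

theorem optCost_blocks_le (s : Fin k → X) (i0 : Fin k) (σ : List X) :
    optCost (pinStart x₀ s) (blocksFrom x₀ s [] σ) ≤ optCost s σ := by
  apply le_optCost s σ i0
  intro ch hch
  obtain ⟨ch', hlen, hcost⟩ := taskOPT_lift (x₀ := x₀) s σ s [] ch hch
  rw [← hcost]
  exact optCost_le_serveCost _ _ ch' hlen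

end Opt

/-! ### MEAS : measurability of functions of finitely many choices -/

section Meas

theorem measurable_of_finite_dependence {Ω : Type} [MeasurableSpace Ω] {Y β : Type}
    [MeasurableSpace β] {n : ℕ} (F : (List Y → Fin n) → β) (L : List (List Y))
    (hF : ∀ P P' : List Y → Fin n, (∀ hist ∈ L, P hist = P' hist) → F P = F P')
    (A : Ω → List Y → Fin n) (hA : ∀ hist, Measurable fun ω => A ω hist) :
    Measurable fun ω => F (A ω) := by
  classical
  rcases isEmpty_or_nonempty Ω with hΩ | ⟨⟨ω₀⟩⟩
  · exact measurable_of_empty _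
  · have hfin : Finite {x // x ∈ L} := Set.Finite.to_subtype (List.finite_toSet L)
    have hR : Measurable fun ω => (fun l : {x // x ∈ L} => A ω l.1) :=
      measurable_pi_iff.mpr fun l => hA l.1
    have hG : Measurable fun g : {x // x ∈ L} → Fin n =>
        F (fun hist => if hh : hist ∈ L then g ⟨hist, hh⟩ else A ω₀ hist) :=
      measurable_of_countable _
    have hEq : (fun ω => F (A ω)) = fun ω =>
        F (fun hist => if hh : hist ∈ L then (fun l : {x // x ∈ L} => A ω l.1) ⟨hist, hh⟩
          else A ω₀ hist) := by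
      funext ω
      apply hF
      intro hist hh
      simp [hh]
    rw [hEq]
    exact hG.comp hR

end Meas

/-! ### CONG : the simulation depends on finitely many choices; measurability, integrability -/

section Cong

variable {k : ℕ} {X : Type} [MetricSpace X] {x₀ : X}

theorem sim_congr (s : Fin k → X) (i0 : Fin k) (P P' : List (PinSpace x₀) → Fin (k + 1))
    (h : List X)
    (hPP : ∀ j < (blocksFrom x₀ s [] h).length,
      P ((blocksFrom x₀ s [] h).take (j + 1)) = P' ((blocksFrom x₀ s [] h).take (j + 1))) :
    sim x₀ s i0 P h = sim x₀ s i0 P' h := by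
  induction h using List.reverseRecOn with
  | nil => rfl
  | append_singleton h r ih =>
    have hB : blocksFrom x₀ s [] (h ++ [r]) =
        blocksFrom x₀ s [] h ++ block x₀ r (reps s h r) := by
      have h0 := blocksFrom_append (x₀ := x₀) s [] h r
      simpa using h0
    rw [hB] at hPP
    have hlen : (block x₀ r (reps s h r)).length = 2 * reps s h r := block_length r _
    have hreps : 1 ≤ reps s h r := one_le_reps s h r
    have ih' : sim x₀ s i0 P h = sim x₀ s i0 P' h := by
      apply ih
      intro j hj
      have h1 := hPP j (by rw [List.length_append]; omega)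
      rwa [List.take_append_of_le_length (by omega)] at h1
    rw [sim_snoc, sim_snoc, ← ih']
    have hsth : (sim x₀ s i0 P h).h = h := sim_h s i0 P h
    have hsthp : (sim x₀ s i0 P h).hp = blocksFrom x₀ s [] h := by
      have h1 := (sim_inv s i0 P h).2.2.2.2.2
      rw [h1, hsth]
    unfold simStep
    rw [hsth, hsthp]
    have h1 : (fun t => runConfig P (blocksFrom x₀ s [] h) (sim x₀ s i0 P h).p
          ((block x₀ r (reps s h r)).take t)) =
        (fun t => runConfig P' (blocksFrom x₀ s [] h) (sim x₀ s i0 P h).p
          ((block x₀ r (reps s h r)).take t)) := by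
      funext t
      apply runConfig_congr
      intro j hj
      rw [List.length_take] at hj
      have h2 := hPP ((blocksFrom x₀ s [] h).length + j) (by rw [List.length_append]; omega)
      have h3 : List.take ((blocksFrom x₀ s [] h).length + j + 1)
          (blocksFrom x₀ s [] h ++ block x₀ r (reps s h r)) =
          blocksFrom x₀ s [] h ++ ((block x₀ r (reps s h r)).take t).take (j + 1) := by
        rw [List.take_take, List.take_append]
        have h4 : min (j + 1) t = j + 1 := by omega
        rw [h4]
        simp [Nat.add_assoc]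
      rw [h3] at h2
      exact h2
    have h2 : P (blocksFrom x₀ s [] h ++ block x₀ r (reps s h r)) =
        P' (blocksFrom x₀ s [] h ++ block x₀ r (reps s h r)) := by
      have h3 := hPP ((blocksFrom x₀ s [] h ++ block x₀ r (reps s h r)).length - 1)
        (by rw [List.length_append]; omega)
      have h4 : (blocksFrom x₀ s [] h ++ block x₀ r (reps s h r)).length - 1 + 1 =
          (blocksFrom x₀ s [] h ++ block x₀ r (reps s h r)).length := by
        rw [List.length_append]; omega
      rwa [h4, List.take_length] at h3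
    rw [h1, h2]

theorem measurable_induce {Ω : Type} [MeasurableSpace Ω] (s : Fin k → X) (i0 : Fin k)
    (A : Ω → List (PinSpace x₀) → Fin (k + 1)) (hA : ∀ hist, Measurable fun ω => A ω hist)
    (h : List X) : Measurable fun ω => induce x₀ s i0 (A ω) h := by
  refine measurable_of_finite_dependence (F := fun P => induce x₀ s i0 P h)
    (L := (List.range (blocksFrom x₀ s [] h).length).map
      fun j => (blocksFrom x₀ s [] h).take (j + 1)) ?_ A hA
  intro P P' hPP
  have h1 : sim x₀ s i0 P h = sim x₀ s i0 P' h := by
    apply sim_congr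
    intro j hj
    apply hPP
    rw [List.mem_map]
    exact ⟨j, List.mem_range.mpr hj, rfl⟩
  show (sim x₀ s i0 P h).last = (sim x₀ s i0 P' h).last
  rw [h1]

end Cong

/-! ### INTG : the cost of a measurable family of policies is integrable -/

section Intg

theorem integrable_runCost {Ω : Type} [MeasurableSpace Ω] (μ : Measure Ω) [IsFiniteMeasure μ]
    {n : ℕ} {Y : Type} [MetricSpace Y] (A : Ω → List Y → Fin n)
    (hA : ∀ hist, Measurable fun ω => A ω hist) (c : Fin n → Y) (τ : List Y) :
    Integrable (fun ω => runCost (A ω) [] c τ) μ := by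
  have hmeas : Measurable fun ω => runCost (A ω) [] c τ := by
    refine measurable_of_finite_dependence (fun P : List Y → Fin n => runCost P [] c τ)
      ((List.range τ.length).map fun j => τ.take (j + 1)) ?_ A hA
    intro P P' hPP
    refine runCost_congr P P' [] c τ ?_
    intro j hj
    rw [List.nil_append]
    refine hPP _ ?_
    exact List.mem_map.mpr ⟨j, List.mem_range.mpr hj, rfl⟩
  refine Integrable.of_bound hmeas.aestronglyMeasurable
    ((τ.map fun r => ∑ j, dist (c j) r + (τ.map fun y => dist y r).sum).sum) ?_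
  refine Filter.Eventually.of_forall ?_
  intro ω
  rw [Real.norm_eq_abs, abs_of_nonneg (runCost_nonneg (A ω) [] c τ)]
  exact runCost_le_bound (A ω) [] c τ

end Intg

/-! ### FIN : competitive policies of the pinned instance induce competitive policies -/

section Fin

variable {k : ℕ} {X : Type} [MetricSpace X]

theorem isCompetitive_of_pin (x₀ : X) (s : Fin k → X) (i0 : Fin k) (c : ℝ) (hc : 0 ≤ c)
    (h : IsCompetitive (k + 1) (PinSpace x₀) (pinStart x₀ s) c) : IsCompetitive k X s c := by
  obtain ⟨Ω, mΩ, μ, hμ, A, hA, B, hB⟩ := h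
  have hind : ∀ hist, Measurable fun ω => induce x₀ s i0 (A ω) hist :=
    fun hist => measurable_induce s i0 A hA hist
  refine ⟨Ω, mΩ, μ, hμ, fun ω => induce x₀ s i0 (A ω), hind, B, fun σ => ?_⟩
  have h1 : ∫ ω, runCost (induce x₀ s i0 (A ω)) [] s σ ∂μ ≤
      ∫ ω, runCost (A ω) [] (pinStart x₀ s) (blocksFrom x₀ s [] σ) ∂μ := by
    apply integral_mono
    · exact integrable_runCost μ (fun ω => induce x₀ s i0 (A ω)) hind s σ
    · exact integrable_runCost μ A hA (pinStart x₀ s) (blocksFrom x₀ s [] σ)
    · intro ω
      exact runCost_induce_le s i0 (A ω) σ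
  have h2 := hB (blocksFrom x₀ s [] σ)
  have h3 : c * optCost (pinStart x₀ s) (blocksFrom x₀ s [] σ) ≤ c * optCost s σ :=
    mul_le_mul_of_nonneg_left (optCost_blocks_le s i0 σ) hc
  linarith

theorem compRatio_le_pin (x₀ : X) (s : Fin k → X) (i0 : Fin k) :
    compRatio k X s ≤ compRatio (k + 1) (PinSpace x₀) (pinStart x₀ s) := by
  unfold compRatio
  exact le_iInf₂ fun c hc => iInf₂_le_of_le c (isCompetitive_of_pin x₀ s i0 c c.2 hc) le_rfl

theorem serverRatio_mono (k : ℕ) (hk : 1 ≤ k) : serverRatio k ≤ serverRatio (k + 1) := by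
  unfold serverRatio
  refine iSup_le fun X => iSup_le fun m => iSup_le fun s => iSup_le fun hf => ?_
  let _ : MetricSpace X := m
  obtain ⟨f, hfinj⟩ := hf
  have i0 : Fin k := ⟨0, hk⟩
  have hinj : ∃ g : Fin (k + 1 + 1) → PinSpace (s i0), Function.Injective g := by
    refine ⟨Fin.snoc (α := fun _ => PinSpace (s i0)) (fun i => PinSpace.pt (f i)) PinSpace.far, ?_⟩
    intro a b hab
    induction a using Fin.lastCases with
    | last =>
      induction b using Fin.lastCases with
      | last => rfl
      | cast b =>
        rw [Fin.snoc_last, Fin.snoc_castSucc] at hab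
        exact absurd hab.symm (PinSpace.pt_ne_far _)
    | cast a =>
      induction b using Fin.lastCases with
      | last =>
        rw [Fin.snoc_last, Fin.snoc_castSucc] at hab
        exact absurd hab (PinSpace.pt_ne_far _)
      | cast b =>
        rw [Fin.snoc_castSucc, Fin.snoc_castSucc] at hab
        rw [hfinj (PinSpace.pt_injective hab)]
  exact (compRatio_le_pin (s i0) s i0).trans
    (le_iSup_of_le (PinSpace (s i0)) (le_iSup_of_le PinSpace.instMetric
      (le_iSup_of_le (pinStart (s i0) s) (le_iSup_of_le hinj le_rfl))))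

end Fin

end Vale.Agent.Lib.P304
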