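import Vale.Agent.Lib.P304.Defs

/-!
# The pinned space (P304)
-/

namespace Vale.Agent.Lib.P304

/-- `X` with one more point `far`, attached to the base point `x₀` by an edge of length `1`. -/
inductive PinSpace {X : Type} (x₀ : X) : Type
  | pt : X → PinSpace x₀
  | far : PinSpace x₀

namespace PinSpace

variable {X : Type} [MetricSpace X] {x₀ : X}

/-- The distance of the pinned space. -/
noncomputable def pdist (x₀ : X) : PinSpace x₀ → PinSpace x₀ → ℝ
  | pt x, pt y => dist x y
  | pt x, far => 1 + dist x₀ x
  | far, pt y => 1 + dist x₀ y
  | far, far => 0

noncomputable instance instMetric : MetricSpace (PinSpace x₀) where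
  dist := pdist x₀
  dist_self a := by cases a <;> simp [pdist]
  dist_comm a b := by cases a <;> cases b <;> simp [pdist, dist_comm]
  dist_triangle a b c := by
    cases a with
    | pt x =>
      cases b with
      | pt y =>
        cases c with
        | pt z => simpa [pdist] using dist_triangle x y z
        | far =>
          simp only [pdist]
          have := dist_triangle x₀ y x
          have h2 := dist_comm x y
          linarith
      | far =>
        cases c with
        | pt z =>
          simp only [pdist]
          have := dist_triangle x x₀ z
          have h2 := dist_comm x x₀
          have h3 := dist_nonneg (x := x₀) (y := x)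
          linarith
        | far =>
          simp only [pdist]
          have h3 := dist_nonneg (x := x₀) (y := x)
          linarith
    | far =>
      cases b with
      | pt y =>
        cases c with
        | pt z =>
          simp only [pdist]
          have := dist_triangle x₀ y z
          linarith
        | far =>
          simp only [pdist]
          have h3 := dist_nonneg (x := x₀) (y := y)
          linarith
      | far =>
        cases c with
        | pt z => simp [pdist]
        | far => simp [pdist]
  eq_of_dist_eq_zero := by
    intro a b h
    cases a with
    | pt x =>
      cases b with
      | pt y =>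
        have h' : dist x y = 0 := h
        rw [dist_eq_zero.mp h']
      | far =>
        have h' : 1 + dist x₀ x = 0 := h
        have h3 := dist_nonneg (x := x₀) (y := x)
        linarith
    | far =>
      cases b with
      | pt y =>
        have h' : 1 + dist x₀ y = 0 := h
        have h3 := dist_nonneg (x := x₀) (y := y)
        linarith
      | far => rfl

theorem dist_pt_pt (x y : X) : dist (pt x : PinSpace x₀) (pt y) = dist x y := rfl

theorem dist_pt_far (x : X) : dist (pt x : PinSpace x₀) far = 1 + dist x₀ x := rfl

theorem dist_far_pt (x : X) : dist (far : PinSpace x₀) (pt x) = 1 + dist x₀ x := rfl

theorem pt_injective : Function.Injective (pt : X → PinSpace x₀) := by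
  intro x y h
  cases h
  rfl

theorem pt_ne_far (x : X) : (pt x : PinSpace x₀) ≠ far := by
  intro h
  cases h

end PinSpace

end Vale.Agent.Lib.P304
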