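import Vale.Agent.Lib.P304.Pin

/-!
# The simulation of a (k+1)-server policy on the pinned space by a k-server policy (P304):
definitions
-/

namespace Vale.Agent.Lib.P304

open PinSpace

/-- The configuration after the deterministic policy `A` has served `τ`, started at `c` after
the requests `h`. -/
def runConfig {n : ℕ} {Y : Type} (A : List Y → Fin n) :
    List Y → (Fin n → Y) → List Y → (Fin n → Y)
  | _, c, [] => c
  | h, c, r :: τ => runConfig A (h ++ [r]) (Function.update c (A (h ++ [r])) r) τ

/-- The block of the request `r` with `m` repetitions: `r, far, r, far, …` (`2 m` requests). -/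
def block {X : Type} (x₀ : X) (r : X) : ℕ → List (PinSpace x₀)
  | 0 => []
  | m + 1 => pt r :: far :: block x₀ r m

/-- The number of repetitions of the request `r` arriving after the requests `h`: at least `1`
and at least the distance from `r` to every point of `s` and of `h`. -/
noncomputable def reps {k : ℕ} {X : Type} [MetricSpace X] (s : Fin k → X) (h : List X)
    (r : X) : ℕ :=
  ⌈∑ i, dist (s i) r + (h.map fun y => dist y r).sum⌉₊ + 1

/-- The request sequence of the pinned instance that corresponds to `σ` arriving after `h`. -/
noncomputable def blocksFrom {k : ℕ} {X : Type} [MetricSpace X] (x₀ : X) (s : Fin k → X) :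
    List X → List X → List (PinSpace x₀)
  | _, [] => []
  | h, r :: σ => block x₀ r (reps s h r) ++ blocksFrom x₀ s (h ++ [r]) σ

/-- Initial positions of the pinned instance: `k` servers at `s`, one more server at `far`. -/
def pinStart {k : ℕ} {X : Type} (x₀ : X) (s : Fin k → X) : Fin (k + 1) → PinSpace x₀ :=
  Fin.snoc (α := fun _ => PinSpace x₀) (fun i => pt (s i)) far

/-- The potential: the sum of the distances between the real servers `q i` and the servers
`φ i` of the simulated policy that they shadow. -/
noncomputable def pot {k : ℕ} {X : Type} [MetricSpace X] {x₀ : X} (q : Fin k → X)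
    (φ : Fin k → Fin (k + 1)) (p : Fin (k + 1) → PinSpace x₀) : ℝ :=
  ∑ i, dist (pt (q i) : PinSpace x₀) (p (φ i))

/-- The state of the simulation: real positions `q`, the shadowing map `φ`, the excluded server
`e` of the simulated policy, the positions `p` and the history `hp` of the simulated policy,
the real history `h`, and the real server that moved last. -/
structure SimState (k : ℕ) {X : Type} (x₀ : X) where
  q : Fin k → X
  φ : Fin k → Fin (k + 1)
  e : Fin (k + 1)
  p : Fin (k + 1) → PinSpace x₀
  hp : List (PinSpace x₀)
  h : List X
  last : Fin k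

/-- The initial state. -/
def simInit {k : ℕ} {X : Type} (x₀ : X) (s : Fin k → X) (i0 : Fin k) : SimState k x₀ where
  q := s
  φ := Fin.castSucc
  e := Fin.last k
  p := pinStart x₀ s
  hp := []
  h := []
  last := i0

open Classical in
/-- One step of the simulation, for the real request `r`, given the configurations `cfgs t` of
the simulated policy after `t` requests of the block (`t ≤ N`), the server `ef` that served the
last request of the block, and the block `blk` itself. If at some time `t ≤ N` a server `a` is
at `r` and a server `b` is at `far`, the real server shadowing `a` (after `b` has been made the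
excluded server) moves to `r`; otherwise the real server `i0` moves to `r`. -/
noncomputable def simCore {k : ℕ} {X : Type} {x₀ : X} (i0 : Fin k) (st : SimState k x₀) (r : X)
    (N : ℕ) (cfgs : ℕ → Fin (k + 1) → PinSpace x₀) (ef : Fin (k + 1))
    (blk : List (PinSpace x₀)) : SimState k x₀ :=
  if hg : ∃ x : ℕ × Fin (k + 1) × Fin (k + 1),
      x.1 ≤ N ∧ cfgs x.1 x.2.1 = pt r ∧ cfgs x.1 x.2.2 = far then
    { q := Function.update st.q
        (@Function.invFun _ _ ⟨i0⟩ (fun i => Equiv.swap st.e hg.choose.2.2 (st.φ i))
          hg.choose.2.1) r
      φ := fun j => Equiv.swap hg.choose.2.2 ef (Equiv.swap st.e hg.choose.2.2 (st.φ j))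
      e := ef
      p := cfgs N
      hp := st.hp ++ blk
      h := st.h ++ [r]
      last := @Function.invFun _ _ ⟨i0⟩ (fun i => Equiv.swap st.e hg.choose.2.2 (st.φ i))
        hg.choose.2.1 }
  else
    { q := Function.update st.q i0 r
      φ := st.φ
      e := st.e
      p := cfgs N
      hp := st.hp ++ blk
      h := st.h ++ [r]
      last := i0 }

/-- One step of the simulation of the policy `P` of the pinned instance. -/
noncomputable def simStep {k : ℕ} {X : Type} [MetricSpace X] (x₀ : X) (s : Fin k → X)
    (i0 : Fin k) (P : List (PinSpace x₀) → Fin (k + 1)) (st : SimState k x₀) (r : X) :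
    SimState k x₀ :=
  simCore i0 st r (2 * reps s st.h r)
    (fun t => runConfig P st.hp st.p ((block x₀ r (reps s st.h r)).take t))
    (P (st.hp ++ block x₀ r (reps s st.h r))) (block x₀ r (reps s st.h r))

/-- The state of the simulation after the real requests `h`. -/
noncomputable def sim {k : ℕ} {X : Type} [MetricSpace X] (x₀ : X) (s : Fin k → X) (i0 : Fin k)
    (P : List (PinSpace x₀) → Fin (k + 1)) (h : List X) : SimState k x₀ :=
  h.foldl (simStep x₀ s i0 P) (simInit x₀ s i0)

/-- The `k`-server policy on `X` induced by the `(k+1)`-server policy `P` on the pinned space. -/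
noncomputable def induce {k : ℕ} {X : Type} [MetricSpace X] (x₀ : X) (s : Fin k → X)
    (i0 : Fin k) (P : List (PinSpace x₀) → Fin (k + 1)) : List X → Fin k :=
  fun h => (sim x₀ s i0 P h).last

/-- The invariant of the simulation. -/
def SimInv {k : ℕ} {X : Type} [MetricSpace X] (x₀ : X) (s : Fin k → X)
    (P : List (PinSpace x₀) → Fin (k + 1)) (st : SimState k x₀) : Prop :=
  Function.Injective st.φ ∧ (∀ i, st.φ i ≠ st.e) ∧ st.p st.e = far ∧
    (∀ i, (∃ j, st.q i = s j) ∨ st.q i ∈ st.h) ∧
    st.p = runConfig P [] (pinStart x₀ s) st.hp ∧ st.hp = blocksFrom x₀ s [] st.h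

end Vale.Agent.Lib.P304
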